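import Vale.Agent.P172.Can

namespace Vale.Agent.Results.P172.Sphere
open Vale.Agent.P198 Vale.Agent.P172

theorem result (G : Type) [Group G] (S : Finset G) (hS : Subgroup.closure (S : Set G) = ⊤)
    (δ : ℕ) (hδ : ThinTriangles (SimpleGraph.mulCayley (S : Set G)) δ)
    (hb : Nonempty (Boundary (SimpleGraph.mulCayley (S : Set G)) 1 ≃ₜ
      Metric.sphere (0 : EuclideanSpace ℝ (Fin 3)) 1)) :
    ∃ (X : Type) (_ : MetricSpace X) (ρ : G →* (X ≃ᵢ X)),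
      Nonempty X ∧ ProperSpace X ∧ Cat UpperHalfPlane X ∧ Cat ℂ X ∧
      (∀ K : Set X, IsCompact K → {g | (ρ g '' K ∩ K).Nonempty}.Finite) ∧
      ∃ K : Set X, IsCompact K ∧ ∀ x, ∃ g, ρ g x ∈ K := by
  obtain ⟨ρ, h1, h2, h3, -⟩ := cannon G S hS δ hδ hb
  exact ⟨HH, inferInstance, toIso ρ h1, ⟨oo⟩, HH_proper, HH_cat, HH_cat0, h2, h3⟩

end Vale.Agent.Results.P172.Sphere
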